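import Vale.Agent.P106.Z.Final
import Vale.Agent.P106.U.H652.Fin
import Vale.Agent.P106.U.H513.Ext
import Vale.Agent.P106.U.H523.Best
import Vale.Agent.P106.U.H127.NEx
import Vale.Agent.P106.U.H712.Glu

/-! # P106 / Z : Question 1 from the composition `PCmp 2` (helper315) -/

set_option autoImplicit false

namespace Vale.Agent.P106.Z

open Vale.Agent.P106.U

/-- the Kakeya side from `PCmp N` -/
theorem stK106_of_cmp {N : ℝ} (hN : 0 ≤ N) (h : H652.PCmp N) : K.StK106 N :=
  H652.stK106_of hN (H523.pBest H513.pExtX) (H127.pNEx_of H513.pExtX) h (H712.glu hN)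

/-- **Question 1** from `PCmp 2` -/
theorem question1_of_cmp (h : H652.PCmp 2) : Stmt.Question1 := question1_of (stK106_of_cmp (by norm_num) h)

end Vale.Agent.P106.Z
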