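import Vale.Agent.P106.R.S.Prof
import Vale.Agent.P106.R.H11.E7F
import Vale.Agent.P106.R.H377.E5Asm
import Vale.Agent.P106.R.H327.UpDn
import Vale.Agent.P106.R.H425.StRG
import Vale.Agent.P106.R.H518.E6
import Vale.Agent.P106.R.E9.Fin
import Vale.Agent.P106.R.E8.Fin
import Vale.Agent.P106.R.E8.Cap
import Vale.Agent.P106.R.E8.H823.Cut1w
import Vale.Agent.P106.R.E8.H11.Cut2
import Vale.Agent.P106.R.E8.H380.Unx
import Vale.Agent.P106.R.E8.MeetE
import Vale.Agent.P106.R.H466.Rep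
import Vale.Agent.P106.R.H679.FrmW
import Vale.Agent.P106.K.Top

/-! # P106 / Z : composition, first part: the multiscale theorem `W.StCORE N` from `K.StK106 N` (helper315) -/

set_option autoImplicit false

namespace Vale.Agent.P106.Z

open Vale.Agent.P106.R Vale.Agent.P106.R.E Vale.Agent.P106.R.S

/-- **E5** -/
theorem e5 {A : ℝ} (hA : 0 ≤ A + 1) : E5 A (max 100 1 + 6) :=
  H377.E5_of hA H518.e1 H518.e2 (C := 100)
    (fun F i j e hK hij hj _ h => e5Up_327 (F := F) i j e hK hij hj h)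
    (fun F i j e hK hij hj _ h => e5Dn_327 (F := F) i j e hK hij hj h)

theorem stE5 {A : ℝ} (hA : 0 ≤ A + 1) : StE5 A := ⟨_, e5 hA⟩

/-- **E8** -/
theorem stE8 : StE8 :=
  E8.stE8_of (A := 15) (N := 0) (B := 3) (H679.stFRMw (E8.stUNX E8.stMEET H466.stREP)) E8.stCUT1w
    (E8.StCUT2.w (E8.H11.stCUT2 le_rfl)) (E8.StCAP.to' (E8.stCAP le_rfl)) E3.e3 (stE5 (by norm_num))

/-- `W.StCORE N` from the Kakeya step `E4 N` -/
theorem core_of {N : ℝ} (hN : 2 ≤ N) (h4 : E4 N) : W.StCORE N :=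
  core hN H518.e1 H518.e2 (stE5 (by linarith)) ⟨_, H518.e6_of (by linarith) E3.e3 h4 (e5 (by linarith))⟩
    ⟨0, H11.e7 (by linarith) le_rfl h4⟩ stE8 (E9.stE9_of (by linarith) h4 stE8)
    fun κ hκ hκ1 => H425.stRG (by linarith) κ hκ hκ1

/-- **the multiscale theorem on the truncated cone** from the Kakeya inequality of price `N` -/
theorem stCORE {N : ℝ} (hN : 2 ≤ N) (h : K.StK106 N) : W.StCORE N := core_of hN (K.e4_of (by linarith) h)

end Vale.Agent.P106.Z
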