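import Vale.Agent.P106.AN.F837.StEof
import Vale.Agent.P106.W812.VolH
import Vale.Agent.P106.AN275.Fin
import Vale.Agent.P106.H84.Cone

/-! # P106 / Z : composition, analysis layer: the estimate (E) from the multiscale theorem (helper315) -/

set_option autoImplicit false

namespace Vale.Agent.P106.Z

open Vale.Agent.P106.AN

theorem stKB : AN.Top.StKB := fun K h C1 hhK hC1 => Vale.Agent.P106.W.Vol.ktn_of_bes K h C1 hhK hC1

/-- **(E)** from the multiscale theorem, price `N` -/
theorem stE_of_core {N : ℝ} (hN : 1 ≤ N) (h : W.StCORE N) : W301.StE (2 + 2 / N) :=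
  AN.Top.stE_core hN (AN275.stAMP H84.stREP H84.stORT H84.stWI) W840.stWS h stKB

end Vale.Agent.P106.Z
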