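import Vale.Agent.P106.Z.Core
import Vale.Agent.P106.AN.F837.Link
import Vale.Agent.P106.W301.Top

/-! # P106 / Z : the wave side: local smoothing in `ℝ^3` from the Kakeya inequality `K.StK106 N` of price `N` (helper315) -/

set_option autoImplicit false

namespace Vale.Agent.P106.Z

/-- the estimate (E) for the truncated cone -/
theorem stE {N : ℝ} (hN : 2 ≤ N) (h : K.StK106 N) : W301.StE (2 + 2 / N) := AN.Top.stE (by linarith) (stCORE hN h)

/-- **Question 1** from the Kakeya inequality of price `2` -/
theorem question1_of (h : K.StK106 2) : Stmt.Question1 := W301.question1_of_stE (AN.Top.stE_three (stCORE le_rfl h))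

/-- the partial target, price `N ≥ 2` -/
theorem partial_of {N : ℝ} (hN : 2 ≤ N) (h : K.StK106 N) :
    (∀ p α : ℝ, 2 < p → p ≤ 2 + 2 / N → 0 < α → Stmt.LS p α) ∧
      (∀ p α : ℝ, 2 + 2 / N ≤ p → 1 - (2 + 2 / N) / p < α → Stmt.LS p α) :=
  W301.partial_of_stE (by
    have : 0 < 2 / N := by positivity
    linarith) (stE hN h)

end Vale.Agent.P106.Z
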