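import Vale.Agent.P106.Z.Cmp
import Vale.Agent.P106.U.S5.Run
import Vale.Agent.P106.U.H428.NrmAll
import Vale.Agent.P106.U.H425.PTop

/-! # P106 / Z : Question 1 from the two last inputs `PRun RA RR` and `PSat RA` (helper812) -/

set_option autoImplicit false

namespace Vale.Agent.P106.Z

open Vale.Agent.P106.U

/-- the composition from the two last inputs -/
theorem pCmp_of_run_sat {N : ℝ} (hN : 2 ≤ N) (h2 : S5.PRun S5.RA S5.RR) (h3 : S5.PSat S5.RA) : H652.PCmp N :=
  S5.pCmp_of' hN H428.pNrm h2 h3 H425.pTop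

/-- **Question 1** from the two last inputs -/
theorem question1_of_run_sat (h2 : S5.PRun S5.RA S5.RR) (h3 : S5.PSat S5.RA) : Stmt.Question1 :=
  question1_of_cmp (pCmp_of_run_sat le_rfl h2 h3)

end Vale.Agent.P106.Z
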