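import Vale.Agent.P106.Z.Sat
import Vale.Agent.P106.U.H565.PRunR
import Vale.Agent.P106.U.H101.RowOff
import Vale.Agent.P106.U.H101.RowOT
import Vale.Agent.P106.U.H315.RowSx
import Vale.Agent.P106.U.H122.RowV2
import Vale.Agent.P106.U.H404.RowP1
import Vale.Agent.P106.U.H127.JunRow

/-! # P106 / Z : Question 1 -/

set_option autoImplicit false

namespace Vale.Agent.P106.Z

open Vale.Agent.P106.U

/-- the sums of the run -/
theorem f2 : H565.PF2 :=
  H565.pF2_of_rows H61.PS.rowOff H61.PS.rowOT H315.rowS H122.V2Fin.row_v2 H404.FinR.rowP1 H61.PS.rowJun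

/-- **Question 1 of problem P106** -/
theorem question1 : Stmt.Question1 := question1_of_F2 f2

end Vale.Agent.P106.Z
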