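import Vale.Agent.P106.Z.Top
import Vale.Agent.P106.U.MIC.Asm
import Vale.Agent.P106.U.H812.RowT
import Vale.Agent.P106.U.H404.RowKd
import Vale.Agent.P106.U.H315.RowL0
import Vale.Agent.P106.U.H205.RowQ

/-! # P106 / Z : one scale from the three open rows (`RowK`, `RowL 2`, `RowH`) (helper315) -/

set_option autoImplicit false

namespace Vale.Agent.P106.Z

open Vale.Agent.P106.U

/-- **one scale** from the rows of kinds 1 and 2 and the heavy row -/
theorem scale_of_rows (rK : MIC.RowK) (r2 : MIC.RowL 2) (rH : MIC.RowH) : MIC.PScale :=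
  MIC.pScale_of H812.row_T H404.rowKd H315.rowL0 rK r2 rH H205.RowQ.rowQ

/-- **Question 1** from the three open rows and `PF2` -/
theorem question1_of_rows (rK : MIC.RowK) (r2 : MIC.RowL 2) (rH : MIC.RowH) (h2 : H565.PF2) : Stmt.Question1 :=
  question1_of_scale_F2 (scale_of_rows rK r2 rH) h2

end Vale.Agent.P106.Z
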