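import Vale.Agent.P106.Z.Rows
import Vale.Agent.P106.U.H495.RowK
import Vale.Agent.P106.U.H425.RowL2T
import Vale.Agent.P106.U.H459.RowHF

/-! # P106 / Z : one scale is a theorem; Question 1 from `PF2` (helper315) -/

set_option autoImplicit false

namespace Vale.Agent.P106.Z

open Vale.Agent.P106.U

/-- **one scale** -/
theorem scale : MIC.PScale := scale_of_rows H495.rowK_st H425.row_L2 H459.row_h

/-- **saturation** -/
theorem sat : S5.PSat S5.RA := pSat_of_scale scale

/-- **Question 1** from the run -/
theorem question1_of_run' (h : S5.PRun S5.RA S5.RR) : Stmt.Question1 := question1_of_run_sat h sat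

/-- **Question 1** from `PF2` -/
theorem question1_of_F2 (h : H565.PF2) : Stmt.Question1 := question1_of_scale_F2 scale h

end Vale.Agent.P106.Z
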