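import Vale.Agent.P106.Z.Last
import Vale.Agent.P106.U.H315.Mic
import Vale.Agent.P106.U.H404.Word
import Vale.Agent.P106.U.H931.PEnd

/-! # P106 / Z : Question 1 from one scale (`PScale`) and the run (`PRun RA RR`) (helper315) -/

set_option autoImplicit false

namespace Vale.Agent.P106.Z

open Vale.Agent.P106.U

/-- saturation from one scale -/
theorem pSat_of_scale (h : MIC.PScale) : S5.PSat S5.RA :=
  MIC.pSat_of (H315.pMic_of H404.pWord h) H931.pEnd

/-- **Question 1** from one scale and the run -/
theorem question1_of_scale_run (h1 : MIC.PScale) (h2 : S5.PRun S5.RA S5.RR) : Stmt.Question1 :=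
  question1_of_run_sat h2 (pSat_of_scale h1)

end Vale.Agent.P106.Z
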