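import Vale.Agent.P106.Z.Scl
import Vale.Agent.P106.U.H565.PBigW

/-! # P106 / Z : Question 1 from one scale (`PScale`) and the sums of the run (`PF2`) (helper315) -/

set_option autoImplicit false

namespace Vale.Agent.P106.Z

open Vale.Agent.P106.U

/-- **Question 1** from one scale (`PScale`) and `PF2` -/
theorem question1_of_scale_F2 (h1 : MIC.PScale) (h2 : H565.PF2) : Stmt.Question1 :=
  question1_of_scale_run h1 (H565.pRun_of h2)

end Vale.Agent.P106.Z
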